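import Vale.Agent.P233G30.Rows

/-! P233G, row UN: a square integrable tensor is determined by its values on test gradients. -/

set_option linter.all false

open MeasureTheory Filter Topology Set
open scoped ENNReal NNReal InnerProductSpace

universe u

namespace Vale.Agent.P233G73

open Vale.Agent.P233 Vale.Agent.P233G

variable {M : Type u} [MetricSpace M] [MeasurableSpace M]
  {U : Measure M → (M → ℝ) → (M → ℝ) → Prop} {m : Measure M}
  {H : Type u} [NormedAddCommGroup H] [InnerProductSpace ℝ H]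

/-- `F` is dominated pointwise by `w` times the norm -/
def Dom (J : H →L[ℝ] Lp E1 2 m) (F : H → M → ℝ) (w : M → ℝ) : Prop :=
  ∀ (k : ℕ) (X : Fin k → H), ∀ᵐ x ∂m, ∀ s : Fin k → ℝ,
    |∑ i, s i * F (X i) x| ≤ w x * ‖∑ i, s i • J (X i) x‖

theorem sum_sq {k : ℕ} (s : Fin k → ℝ) (a : Fin k → E1) :
    ∑ i, ∑ j, s i * s j * ⟪a i, a j⟫_ℝ = ‖∑ i, s i • a i‖ ^ 2 := by
  rw [← real_inner_self_eq_norm_sq, sum_inner]
  refine Finset.sum_congr rfl fun i _ => ?_
  rw [inner_sum]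
  refine Finset.sum_congr rfl fun j _ => ?_
  rw [real_inner_smul_left, real_inner_smul_right, mul_assoc]

theorem abs_le_of {a t n y : ℝ} (hn : 0 ≤ n) (hy : 0 ≤ y) (h : a ^ 2 ≤ t ^ 2 * (n ^ 2 * y ^ 2)) :
    |a| ≤ |t| * y * n := by
  refine abs_le_of_sq_le_sq' ?_ (by positivity) |> abs_le.2
  calc a ^ 2 ≤ t ^ 2 * (n ^ 2 * y ^ 2) := h
    _ = (|t| * y * n) ^ 2 := by rw [mul_pow, mul_pow, sq_abs]; ring

theorem dom_left {T : Tan U m H} {Gr : L0 m → M → E1} {J : H →L[ℝ] Lp E1 2 m} (hJ : Rz T Gr J)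
    {A : H → H → L0 m} (hA : T.IsTen A) (Y : H) : ∃ w, Dom J (fun X => A X Y) w := by
  obtain ⟨τ, -, h⟩ := hA
  refine ⟨fun x => |τ x| * ‖J Y x‖, fun k X => ?_⟩
  filter_upwards [h k X (fun _ => Y), ae_all_iff.2 fun i => ae_all_iff.2 fun j =>
    hJ.ip (X i) (X j), hJ.ip Y Y] with x h1 h2 h3 s
  refine abs_le_of (norm_nonneg _) (norm_nonneg _) ((h1 s).trans_eq ?_)
  rw [← sum_sq, Finset.sum_mul]
  congr 1
  refine Finset.sum_congr rfl fun i _ => ?_
  rw [Finset.sum_mul]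
  refine Finset.sum_congr rfl fun j _ => ?_
  rw [h2, h3, real_inner_self_eq_norm_sq]
  ring

theorem dom_right {T : Tan U m H} {Gr : L0 m → M → E1} {J : H →L[ℝ] Lp E1 2 m} (hJ : Rz T Gr J)
    {A : H → H → L0 m} (hA : T.IsTen A) (Y : H) : ∃ w, Dom J (fun X => A Y X) w := by
  obtain ⟨τ, -, h⟩ := hA
  refine ⟨fun x => |τ x| * ‖J Y x‖, fun k X => ?_⟩
  filter_upwards [h k (fun _ => Y) X, ae_all_iff.2 fun i => ae_all_iff.2 fun j =>
    hJ.ip (X i) (X j), hJ.ip Y Y] with x h1 h2 h3 s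
  refine abs_le_of (norm_nonneg _) (norm_nonneg _) ((h1 s).trans_eq ?_)
  rw [← sum_sq, Finset.sum_mul]
  congr 1
  refine Finset.sum_congr rfl fun i _ => ?_
  rw [Finset.sum_mul]
  refine Finset.sum_congr rfl fun j _ => ?_
  rw [h2, h3, real_inner_self_eq_norm_sq]
  ring

theorem Dom.sub {J : H →L[ℝ] Lp E1 2 m} {F F' : H → M → ℝ} {w w' : M → ℝ} (h : Dom J F w)
    (h' : Dom J F' w') : Dom J (fun X x => F X x - F' X x) (fun x => w x + w' x) := by
  intro k X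
  filter_upwards [h k X, h' k X] with x h1 h2 s
  have e : ∑ i, s i * (F (X i) x - F' (X i) x) = ∑ i, s i * F (X i) x - ∑ i, s i * F' (X i) x := by
    rw [← Finset.sum_sub_distrib]
    exact Finset.sum_congr rfl fun i _ => mul_sub _ _ _
  rw [e, add_mul]
  exact (abs_sub _ _).trans (add_le_add (h1 s) (h2 s))

theorem Dom.three {J : H →L[ℝ] Lp E1 2 m} {F : H → M → ℝ} {w : M → ℝ} (h : Dom J F w)
    (X Y Z : H) : ∀ᵐ x ∂m, ∀ a b c : ℝ,
      |a * F X x + b * F Y x + c * F Z x| ≤ w x * ‖a • J X x + b • J Y x + c • J Z x‖ := by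
  filter_upwards [h 3 ![X, Y, Z]] with x h1 a b c
  have := h1 ![a, b, c]
  simpa [Fin.sum_univ_three] using this

theorem Dom.zero {T : Tan U m H} {Gr : L0 m → M → E1} {J : H →L[ℝ] Lp E1 2 m} (hJ : Rz T Gr J)
    (hC : IsGamma (sob m)) (hD : Dense {v | ∃ l, (sob m).IsTestV l ∧ T.io l = v})
    {F : H → M → ℝ} {w : M → ℝ} (h : Dom J F w)
    (h0 : ∀ b ∈ (sob m).Test, ∀ᵐ x ∂m, F (T.grad b) x = 0) (X : H) : ∀ᵐ x ∂m, F X x = 0 := by
  have hl : ∀ l, (sob m).IsTestV l → ∀ᵐ x ∂m, F (T.io l) x = 0 := by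
    intro l
    induction l with
    | nil =>
      intro _
      have e : T.io [] = 0 := rfl
      rw [e]
      filter_upwards [h.three 0 0 0, Lp.coeFn_zero E1 2 m] with x h1 h2
      have h3 := h1 1 0 0
      rw [map_zero, h2] at h3
      simpa using h3
    | cons p l ih =>
      intro hp
      have hp1 := hp p List.mem_cons_self
      have e : T.io (p :: l) = T.sm p.1 (T.grad p.2) + T.io l := by simp [Tan.io]
      have e2 : J (T.io (p :: l)) = J (T.sm p.1 (T.grad p.2)) + J (T.io l) := by rw [e, map_add]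
      filter_upwards [ih fun q hq => hp q (List.mem_cons_of_mem _ hq), h0 _ hp1.2,
        h.three (T.io (p :: l)) (T.grad p.2) (T.io l),
        hJ.sm p.1 (hC.test_A hp1.1).2 (T.grad p.2),
        Lp.coeFn_add (J (T.sm p.1 (T.grad p.2))) (J (T.io l))] with x h1 h2 h3 h4 h5
      have h6 := h3 1 (-p.1 x) (-1)
      rw [e2, h5, Pi.add_apply, h4, h1, h2] at h6
      have e3 : (1 : ℝ) • (p.1 x • J (T.grad p.2) x + J (T.io l) x) + (-p.1 x) • J (T.grad p.2) x
          + (-1 : ℝ) • J (T.io l) x = 0 := by module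
      rw [e3] at h6
      simpa using h6
  obtain ⟨v, hv, hlim⟩ := mem_closure_iff_seq_limit.1 (hD X)
  have hv0 : ∀ n, ∀ᵐ x ∂m, F (v n) x = 0 := fun n => by
    obtain ⟨l, h1, h2⟩ := hv n
    rw [← h2]
    exact hl l h1
  have hJl : Tendsto (fun n => J (v n)) atTop (𝓝 (J X)) := (J.continuous.tendsto X).comp hlim
  obtain ⟨φ, -, hφ⟩ := (tendstoInMeasure_of_tendsto_Lp hJl).exists_seq_tendsto_ae
  filter_upwards [hφ, ae_all_iff.2 hv0, ae_all_iff.2 fun n => h.three X (v n) X] with x h1 h2 h3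
  have h4 : ∀ n, |F X x| ≤ w x * ‖J X x - J (v (φ n)) x‖ := fun n => by
    have h5 := h3 (φ n) 1 (-1) 0
    rw [h2] at h5
    simpa [sub_eq_add_neg] using h5
  have h5 : Tendsto (fun n => w x * ‖J X x - J (v (φ n)) x‖) atTop (𝓝 (w x * ‖J X x - J X x‖)) :=
    ((tendsto_const_nhds.sub h1).norm).const_mul _
  rw [sub_self, norm_zero, mul_zero] at h5
  exact abs_nonpos_iff.1 (ge_of_tendsto' h5 h4)

theorem un : UN.{u} := by
  intro M _ _ _ _ U m κ Gr hc H _ _ T J hJ hD A A' hA hA' h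
  have h1 : ∀ c ∈ (sob m).Test, ∀ X, ∀ᵐ x ∂m, A X (T.grad c) x - A' X (T.grad c) x = 0 := by
    intro c hcT X
    obtain ⟨w, hw⟩ := dom_left hJ hA (T.grad c)
    obtain ⟨w', hw'⟩ := dom_left hJ hA' (T.grad c)
    refine (hw.sub hw').zero hJ hc.hC hD (fun b hb => ae_of_all _ fun x => ?_) X
    simp only [h b hb c hcT, sub_self]
  funext X Y
  obtain ⟨w, hw⟩ := dom_right hJ hA X
  obtain ⟨w', hw'⟩ := dom_right hJ hA' X
  refine AEEqFun.ext ?_
  filter_upwards [(hw.sub hw').zero hJ hc.hC hD (fun b hb => h1 b hb X) Y] with x hx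
  exact sub_eq_zero.1 hx

end Vale.Agent.P233G73
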